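import Vale.Agent.P163W43.Main

/-!
# P163: exponential decay in the two-dimensional `O(n)` model, with existence of the states
-/

open MeasureTheory Vale.Agent.P163.Model Vale.Agent.P163W43
open scoped RealInnerProductSpace

/-- The finite-volume measures are probability measures; along every exhausting sequence of boxes
they have a subsequential local weak limit; infinite-volume states exist, are `O(n)` invariant
probability measures, and their spin correlations decay exponentially, uniformly in the state. -/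
theorem Vale.Agent.Results.P163.AStatesExist.result (n : ℕ) (hn : 3 ≤ n) (β : ℝ) (hβ : 0 < β) :
    (∀ p a b, IsProbabilityMeasure (boxState n β p a b)) ∧
    (∀ p a b, Exhausts a b → ∃ φ : ℕ → ℕ, StrictMono φ ∧
      ∃! μ, LocalLimit n β (p ∘ φ) (a ∘ φ) (b ∘ φ) μ) ∧
    (∃ μ, IsState n β μ) ∧
    (∀ μ, IsState n β μ → IsProbabilityMeasure μ ∧
      ∀ U : E n ≃ₗᵢ[ℝ] E n, μ.map (rot U) = μ) ∧
    ∃ C m : ℝ, 0 < m ∧ ∀ μ, IsState n β μ → ∀ x y : ℤ × ℤ,
      Integrable (fun σ => ⟪(σ x : E n), (σ y : E n)⟫) μ ∧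
      ∫ σ, ⟪(σ x : E n), (σ y : E n)⟫ ∂μ ≤ C * Real.exp (-m * dist2 x y) := by
  have : NeZero n := ⟨by omega⟩
  obtain ⟨C, m, hm, H⟩ := Vale.Agent.P163.model_decay (Vale.Agent.P163.bridge hn hβ fun _ hε =>
    Vale.Agent.P163.MB_decay hn hβ.le hε)
  refine ⟨box_prob β, fun p a b h => ?_, exists_state β fun _ => false,
    fun μ ⟨_, _, _, _, h⟩ => ⟨h.prob, h.rot_eq⟩, C, m, hm, fun μ hμ x y => ⟨?_, H μ hμ x y⟩⟩
  · obtain ⟨φ, hφ, μ, hμ⟩ := exists_limit (n := n) β p h
    exact ⟨φ, hφ, μ, hμ, fun ν hν => hν.unique hμ⟩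
  · obtain ⟨_, _, _, _, h⟩ := hμ
    have := h.prob
    exact Continuous.integrable_of_hasCompactSupport (by fun_prop)
      (HasCompactSupport.of_compactSpace _)
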